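import Vale.Agent.P355.H387.Fin
import Vale.Agent.P355.H138.AFin

/-! Bridge records with 18 bits for the number of the closed class. -/

namespace Vale.Agent.P355.H129R.W18

open Finset Vale.Agent.P355 Vale.Agent.P355.H138 Vale.Agent.P355.H387 Vale.Agent.P355.H693.Inj

variable {m : Bool} {F : Bool → Mt → ℝ} {R : Bool → (Option (Fin 3) → Option (Fin 3) → ℤ) → ℝ}

/-- one bridge record: `[0,18)` closed id, `[18]` sign, `[19,75)` magnitude, then 25 terms. -/
noncomputable def br1 (W : ℕ) (tr : Tr) (ct : CT) (r S : ℕ) (P Q : AT) (Pc Qc Mc : ℕ)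
    (k : ℕ → AT → AT → ℕ → ℕ → ℕ → Bool) : Bool :=
  seq (Nat.land r 262143) fun id =>
  seq (Nat.land (Nat.shiftRight r 19) 72057594037927935) fun s =>
  seq (Nat.shiftRight r 75) fun RR =>
  seq (Nat.add S (Nat.add (Nat.mul 46656 s) 25)) fun S' =>
  seq (Nat.add Mc s) fun Mc' =>
  seq (Nat.shiftLeft s (Nat.mul W id)) fun z =>
  Nat.rec (motive := fun _ => Bool)
    (brc tr ct id s RR P fun P' => seq (Nat.add Pc z) fun Pc' => k S' P' Q Pc' Qc Mc')
    (fun _ _ => brc tr ct id s RR Q fun Q' => seq (Nat.add Qc z) fun Qc' => k S' P Q' Pc Qc' Mc')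
    (Nat.land (Nat.shiftRight r 18) 1)

/-- state of a bridge module. -/
def BI (F : Bool → Mt → ℝ) (R : Bool → (Option (Fin 3) → Option (Fin 3) → ℤ) → ℝ) (W : ℕ) (tr : Tr)
    (ct : CT) (S : ℕ) (P Q : AT) (Pc Qc Mc : ℕ) : Prop :=
  ∃ V U p q, AF F ct P S V ∧ AF F ct Q S U ∧ H129.NRep W (cvl R tr) Pc Mc p ∧
    H129.NRep W (cvl R tr) Qc Mc q ∧ V - U = 46656 * (p - q)

theorem br1_sound (hF : Cls F) (hB : Brg F R) {W : ℕ} {tr : Tr} {ct : CT} {r S : ℕ} {P Q : AT}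
    {Pc Qc Mc : ℕ} (h : BI F R W tr ct S P Q Pc Qc Mc)
    (k : ℕ → AT → AT → ℕ → ℕ → ℕ → Bool) (hk : br1 W tr ct r S P Q Pc Qc Mc k = true) :
    ∃ S' P' Q' Pc' Qc' Mc', BI F R W tr ct S' P' Q' Pc' Qc' Mc' ∧ k S' P' Q' Pc' Qc' Mc' = true := by
  unfold br1 at hk
  simp only [seq_eq] at hk
  generalize Nat.land r 262143 = id at hk
  generalize Nat.land (Nat.shiftRight r 19) _ = s at hk
  generalize Nat.shiftRight r 75 = RR at hk
  generalize Nat.land (Nat.shiftRight r 18) 1 = sg at hk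
  have e1 : Nat.add S (Nat.add (Nat.mul 46656 s) 25) = S + (46656 * s + 25) := rfl
  have e2 : Nat.add Mc s = Mc + s := rfl
  have e3 : Nat.shiftLeft s (Nat.mul W id) = s <<< (W * id) := rfl
  rw [e1, e2, e3] at hk
  obtain ⟨V, U, p, q, h1, h2, h3, h4, h5⟩ := h
  cases sg with
  | zero =>
    obtain ⟨P', a1, a2⟩ := brc_sound hF hB h1 _ hk
    refine ⟨_, _, _, _, _, _, ⟨_, _, _, _, a1, h2.mono (by omega), h3.add (H129.NRep.single s id),
      h4.mono (by omega), ?_⟩, a2⟩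
    linear_combination h5
  | succ sg =>
    obtain ⟨Q', a1, a2⟩ := brc_sound hF hB h2 _ hk
    refine ⟨_, _, _, _, _, _, ⟨_, _, _, _, h1.mono (by omega), a1, h3.mono (by omega),
      h4.add (H129.NRep.single s id), ?_⟩, a2⟩
    linear_combination h5

/-- `n` records of 1088 bits. -/
noncomputable def brN (W : ℕ) (tr : Tr) (ct : CT) (n : ℕ) :
    ℕ → ℕ → AT → AT → ℕ → ℕ → ℕ → (ℕ → AT → AT → ℕ → ℕ → ℕ → Bool) → Bool :=
  Nat.rec (motive := fun _ => ℕ → ℕ → AT → AT → ℕ → ℕ → ℕ →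
      (ℕ → AT → AT → ℕ → ℕ → ℕ → Bool) → Bool)
    (fun _ S P Q Pc Qc Mc k => k S P Q Pc Qc Mc)
    (fun _ ih C S P Q Pc Qc Mc k => seq (Nat.land C 3316158518186977171087283760642741158699936149735704467159471849921418683482035763477878926564345847729145083728966646356210626353328840324989147544629059746554141479347263264595425816446455256534872353644097455203319930608430165174159005378955830171087831965898486080345430665055936553487340789901656166618033483630075818541055) fun r =>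
      br1 W tr ct r S P Q Pc Qc Mc fun S' P' Q' Pc' Qc' Mc' =>
        seq (Nat.shiftRight C 1088) fun C' => ih C' S' P' Q' Pc' Qc' Mc' k) n

theorem brN_sound (hF : Cls F) (hB : Brg F R) {W : ℕ} {tr : Tr} {ct : CT}
    (k : ℕ → AT → AT → ℕ → ℕ → ℕ → Bool) (n : ℕ) :
    ∀ (C S : ℕ) (P Q : AT) (Pc Qc Mc : ℕ), BI F R W tr ct S P Q Pc Qc Mc →
    brN W tr ct n C S P Q Pc Qc Mc k = true →
    ∃ S' P' Q' Pc' Qc' Mc', BI F R W tr ct S' P' Q' Pc' Qc' Mc' ∧ k S' P' Q' Pc' Qc' Mc' = true := by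
  induction n with
  | zero =>
    intro C S P Q Pc Qc Mc h hk
    exact ⟨S, P, Q, Pc, Qc, Mc, h, hk⟩
  | succ n ih =>
    intro C S P Q Pc Qc Mc h hk
    have hstep : brN W tr ct (n + 1) C S P Q Pc Qc Mc k = seq (Nat.land C 3316158518186977171087283760642741158699936149735704467159471849921418683482035763477878926564345847729145083728966646356210626353328840324989147544629059746554141479347263264595425816446455256534872353644097455203319930608430165174159005378955830171087831965898486080345430665055936553487340789901656166618033483630075818541055) fun r =>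
      br1 W tr ct r S P Q Pc Qc Mc fun S' P' Q' Pc' Qc' Mc' =>
        seq (Nat.shiftRight C 1088) fun C' => brN W tr ct n C' S' P' Q' Pc' Qc' Mc' k := rfl
    rw [hstep, seq_eq] at hk
    obtain ⟨S1, P1, Q1, Pc1, Qc1, Mc1, a1, a2⟩ := br1_sound hF hB h _ hk
    rw [seq_eq] at a2
    exact ih _ _ _ _ _ _ _ a1 a2

/-- list of chunks. -/
noncomputable def brL (W : ℕ) (tr : Tr) (ct : CT) (L : List (ℕ × ℕ)) :
    ℕ → AT → AT → ℕ → ℕ → ℕ → (ℕ → AT → AT → ℕ → ℕ → ℕ → Bool) → Bool :=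
  List.rec (motive := fun _ => ℕ → AT → AT → ℕ → ℕ → ℕ →
      (ℕ → AT → AT → ℕ → ℕ → ℕ → Bool) → Bool)
    (fun S P Q Pc Qc Mc k => k S P Q Pc Qc Mc)
    (fun c _ ih S P Q Pc Qc Mc k => brN W tr ct c.1 c.2 S P Q Pc Qc Mc
      fun S' P' Q' Pc' Qc' Mc' => ih S' P' Q' Pc' Qc' Mc' k) L

theorem brL_sound (hF : Cls F) (hB : Brg F R) {W : ℕ} {tr : Tr} {ct : CT}
    (k : ℕ → AT → AT → ℕ → ℕ → ℕ → Bool) (L : List (ℕ × ℕ)) :
    ∀ (S : ℕ) (P Q : AT) (Pc Qc Mc : ℕ), BI F R W tr ct S P Q Pc Qc Mc →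
    brL W tr ct L S P Q Pc Qc Mc k = true →
    ∃ S' P' Q' Pc' Qc' Mc', BI F R W tr ct S' P' Q' Pc' Qc' Mc' ∧ k S' P' Q' Pc' Qc' Mc' = true := by
  induction L with
  | nil =>
    intro S P Q Pc Qc Mc h hk
    exact ⟨S, P, Q, Pc, Qc, Mc, h, hk⟩
  | cons c L ih =>
    intro S P Q Pc Qc Mc h hk
    obtain ⟨S1, P1, Q1, Pc1, Qc1, Mc1, a1, a2⟩ := brN_sound hF hB _ _ _ _ _ _ _ _ _ h hk
    exact ih _ _ _ _ _ _ a1 a2

/-- **check of a bridge module.** -/
noncomputable def ckBr (W : ℕ) (tr : Tr) (ct : CT) (L out : List (ℕ × ℕ)) (Pc Qc Mc : ℕ) : Bool :=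
  brL W tr ct L 0 (zeroT ct) (zeroT ct) 0 0 0 fun S P Q Pc' Qc' Mc' =>
    loadL out S Q P fun S' Q' P' =>
      cond (Nat.blt S' 9223372036854775808) (cond (eqT P' Q')
        (cond (Nat.beq Pc' Pc) (cond (Nat.beq Qc' Qc) (Nat.ble Mc' Mc) false) false) false) false

theorem ckBr_sound (hF : Cls F) (hB : Brg F R) {W : ℕ} {tr : Tr} {ct : CT} {L out : List (ℕ × ℕ)}
    {Pc Qc Mc : ℕ} (h : ckBr W tr ct L out Pc Qc Mc = true) :
    ∃ p q, H129.NRep W (cvl R tr) Pc Mc p ∧ H129.NRep W (cvl R tr) Qc Mc q ∧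
      46656 * (p - q) = evL F ct out := by
  unfold ckBr at h
  have h0 : BI F R W tr ct 0 (zeroT ct) (zeroT ct) 0 0 0 :=
    ⟨0, 0, 0, 0, AF.zero ct, AF.zero ct, H129.NRep.zero, H129.NRep.zero, by ring⟩
  obtain ⟨S1, P1, Q1, Pc1, Qc1, Mc1, ⟨V, U, p, q, b1, b2, b3, b4, b5⟩, a2⟩ :=
    brL_sound hF hB _ _ _ _ _ _ _ _ h0 h
  obtain ⟨S2, Q2, P2, U2, V2, c1, c2, c3, c4⟩ := loadL_sound _ _ _ _ _ _ _ b2 b1 a2
  cases hz : Nat.blt S2 9223372036854775808 with
  | false => rw [hz] at c4; simp at c4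
  | true =>
    cases he : eqT P2 Q2 with
    | false => rw [hz, he] at c4; simp at c4
    | true =>
      cases h1 : Nat.beq Pc1 Pc with
      | false => rw [hz, he, h1] at c4; simp at c4
      | true =>
        cases h2 : Nat.beq Qc1 Qc with
        | false => rw [hz, he, h1, h2] at c4; simp at c4
        | true =>
          rw [hz, he, h1, h2] at c4
          simp only [cond_true] at c4
          have hS : S2 < 2 ^ 63 := by
            rw [Nat.blt_eq] at hz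
            norm_num; exact hz
          have := eqT_sound c2 c1 hS hS he
          have hM : Mc1 ≤ Mc := Nat.le_of_ble_eq_true c4
          rw [Nat.eq_of_beq_eq_true h1] at b3
          rw [Nat.eq_of_beq_eq_true h2] at b4
          exact ⟨p, q, b3.mono hM, b4.mono hM, by linarith⟩


theorem brP_of_ck {x : Fin 7 → Fin 7 → ℂ} {W : ℕ} (hx : Base x) {tr : Tr} {ct : CT} {L out : List (ℕ × ℕ)} {P Q M : ℕ}
    (h : ckBr W tr ct L out P Q M = true) : BrP x W tr ct out P Q M := by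
  obtain ⟨p, q, h1, h2, h3⟩ := ckBr_sound (cls_riv hx) (H387.brg_riv hx) h
  exact ⟨p, q, h1, h2, h3⟩

end Vale.Agent.P355.H129R.W18
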