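import Vale.Agent.P355.H129R.F0
import Vale.Agent.P355.H129R.F1
import Vale.Agent.P355.H129R.F2
import Vale.Agent.P355.H129R.F3

namespace Vale.Agent.P355.H129R

open Vale.Agent.P355 H138 H129
open Vale.Agent.P355.H387 (ckBr ckRows ckFin ckMerge CT evL)
open Vale.Agent.P355.H693.Inj (riv)

theorem rel (x : Fin 7 → Fin 7 → ℂ) (hx : Good false x) (hN : H182.N7x x) :
    ARel 80 (vl 3 x H129A.tr) PR QR MR (5 * 1971114506 / 93312) := by
  obtain ⟨p, q, h1, h2, h3⟩ := B hx.1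
  refine ⟨p, q, h1, h2, ?_⟩
  have hm := H387.ckMerge_sound (F := riv x) LMc
  have f0 := ckRes_sound (F := riv x) (c := 5 / 2) (by norm_num) (fun b M => H693.Inj.abs_riv_le hx.1 b M) fc0
  have f1 := ckRes_sound (F := riv x) (c := 5 / 2) (by norm_num) (fun b M => H693.Inj.abs_riv_le hx.1 b M) fc1
  have f2 := ckRes_sound (F := riv x) (c := 5 / 2) (by norm_num) (fun b M => H693.Inj.abs_riv_le hx.1 b M) fc2
  have f3 := ckRes_sound (F := riv x) (c := 5 / 2) (by norm_num) (fun b M => H693.Inj.abs_riv_le hx.1 b M) fc3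
  have g0 := Mr0 hx.1 hN
  have g1 := Mr1 hx.1 hN
  have g2 := Mr2 hx.1 hN
  have g3 := Mr3 hx.1 hN
  have g4 := Mr4 hx.1 hN
  have g5 := Mr5 hx.1 hN
  unfold RwP at g0 g1 g2 g3 g4 g5
  simp only [List.map_cons, List.map_nil, List.sum_cons, List.sum_nil, add_zero] at hm
  unfold LM at hm
  unfold M0 at g0
  unfold M1 at g1
  unfold M2 at g2
  unfold M3 at g3
  unfold M4 at g4
  unfold M5 at g5
  simp only [H387.evL_append] at hm g0 g1 g2 g3 g4 g5 f0 f1 f2 f3
  rw [abs_le] at f0 f1 f2 f3 ⊢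
  rw [hm] at h3
  push_cast at f0 f1 f2 f3
  constructor <;> linarith [f0.1, f0.2, f1.1, f1.2, f2.1, f2.2, f3.1, f3.2]

end Vale.Agent.P355.H129R
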