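import Vale.Agent.P355.H129A.Fin
import Vale.Agent.P355.H129R.Rel

/-! At most five mutually unbiased bases in dimension six. -/

namespace Vale.Agent.P355.H129R

open Vale.Agent.P355 H138 H129 H349 H129A

theorem numck : resL1 13 80 10 (H129A.PT + (2147483648 * (5 * H129A.Kc) + PR))
    (H129A.QT + (5 * H129A.S + (QR + 3448870 <<< (80 * 0))))
    (5113643280 + (2147483648 * (5 * (301 ^ 2 * 6)) + MR))
    (4732351040 + (5 * (301 ^ 2 * (6 * 2 ^ 32)) + (MR + 3448870))) 0 = true := by
  decide +kernel

/-- **At most five mutually unbiased bases in dimension six.** -/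
theorem le_five {n : ℕ} {B : Fin n → M6} (hB : IsMUBs B) : n ≤ 5 :=
  H129A.fin (fun x hx hN => rel x hx hN) numck (by norm_num) hB

end Vale.Agent.P355.H129R
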