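import Vale.Agent.P355.H138.AFin

/-! Differences of sparse lists and their mass. -/

namespace Vale.Agent.P355.H129R

open Finset Vale.Agent.P355 H138 H129
open Vale.Agent.P355.H387 (CT AT AF evL evN ev loadL loadN loadL_sound seq seq_eq zeroT eqT eqT_sound FV)
open Vale.Agent.P355.H693.Inj (riv Mt)

variable {F : Bool → Mt → ℝ}

/-- `evL A - evL B = evL out`. -/
noncomputable def ckDiff (ct : CT) (A B out : List (ℕ × ℕ)) : Bool :=
  loadL A 0 (zeroT ct) (zeroT ct) fun S P Q => loadL B S Q P fun S' Q' P' =>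
    loadL out S' Q' P' fun S'' Q'' P'' =>
      cond (Nat.blt S'' 9223372036854775808) (eqT P'' Q'') false

theorem ckDiff_sound {ct : CT} {A B out : List (ℕ × ℕ)} (h : ckDiff ct A B out = true) :
    evL F ct A - evL F ct B = evL F ct out := by
  unfold ckDiff at h
  obtain ⟨S1, P1, Q1, V1, W1, a1, a2, a3, a4⟩ := loadL_sound (F := F) _ _ _ _ _ _ _
    (AF.zero ct) (AF.zero ct) h
  obtain ⟨S2, Q2, P2, W2, V2, b1, b2, b3, b4⟩ := loadL_sound _ _ _ _ _ _ _ a2 a1 a4
  obtain ⟨S3, Q3, P3, W3, V3, c1, c2, c3, c4⟩ := loadL_sound _ _ _ _ _ _ _ b1 b2 b4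
  cases hz : Nat.blt S3 9223372036854775808 with
  | false => rw [hz] at c4; simp at c4
  | true =>
    rw [hz] at c4
    simp only [cond_true] at c4
    have hS : S3 < 2 ^ 63 := by
      rw [Nat.blt_eq] at hz
      norm_num; exact hz
    have := eqT_sound c2 c1 hS hS c4
    linarith

/-- mass of `n` entries. -/
noncomputable def mN (n : ℕ) : ℕ → ℕ → (ℕ → Bool) → Bool :=
  Nat.rec (motive := fun _ => ℕ → ℕ → (ℕ → Bool) → Bool) (fun _ acc k => k acc)
    (fun _ ih C acc k => seq (Nat.add acc (Nat.shiftRight (Nat.land C 1208925819614629174706175) 19))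
      fun acc' => seq (Nat.shiftRight C 80) fun C' => ih C' acc' k) n

theorem abs_ev_le {c : ℝ} (hc0 : 0 ≤ c) (hc : ∀ b M, |F b M| ≤ c) (ct : CT) (e : ℕ) :
    |ev F ct e| ≤ c * (Nat.shiftRight e 19 : ℕ) := by
  unfold ev
  have h1 : |FV F (ct.get (Nat.land (Nat.shiftRight e 6) 4095) (Nat.land e 63))| ≤ c := hc _ _
  have h2 : (0 : ℝ) ≤ (Nat.shiftRight e 19 : ℕ) := Nat.cast_nonneg _
  rw [abs_mul, abs_mul, abs_of_nonneg h2]
  have h3 : |(if Nat.land (Nat.shiftRight e 18) 1 = 0 then 1 else -1 : ℝ)| = 1 := by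
    split_ifs <;> simp
  rw [h3, one_mul, mul_comm]
  exact mul_le_mul_of_nonneg_right h1 h2

theorem mN_sound {c : ℝ} (hc0 : 0 ≤ c) (hc : ∀ b M, |F b M| ≤ c) {ct : CT} (n : ℕ) :
    ∀ (C acc : ℕ) (k : ℕ → Bool), mN n C acc k = true →
      ∃ m : ℕ, |evN F ct n C| ≤ c * ((m : ℝ) - acc) ∧ acc ≤ m ∧ k m = true := by
  induction n with
  | zero =>
    intro C acc k hk
    exact ⟨acc, by simp [evN], le_rfl, hk⟩
  | succ n ih =>
    intro C acc k hk
    have hstep : mN (n + 1) C acc k =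
        seq (Nat.add acc (Nat.shiftRight (Nat.land C 1208925819614629174706175) 19))
          fun acc' => seq (Nat.shiftRight C 80) fun C' => mN n C' acc' k := rfl
    rw [hstep, seq_eq, seq_eq] at hk
    obtain ⟨m, h1, h2, h3⟩ := ih _ _ _ hk
    have hev : evN F ct (n + 1) C = ev F ct (Nat.land C 1208925819614629174706175)
      + evN F ct n (Nat.shiftRight C 80) := rfl
    have h4 := abs_ev_le hc0 hc ct (Nat.land C 1208925819614629174706175)
    have h5 : ((Nat.add acc (Nat.shiftRight (Nat.land C 1208925819614629174706175) 19) : ℕ) : ℝ)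
      = acc + (Nat.shiftRight (Nat.land C 1208925819614629174706175) 19 : ℕ) := by
      show ((acc + _ : ℕ) : ℝ) = _
      push_cast; rfl
    refine ⟨m, ?_, le_trans (Nat.le_add_right _ _) h2, h3⟩
    rw [hev]
    refine (abs_add_le _ _).trans ?_
    rw [h5] at h1
    linarith

/-- mass of a list. -/
noncomputable def mL (L : List (ℕ × ℕ)) : ℕ → (ℕ → Bool) → Bool :=
  List.rec (motive := fun _ => ℕ → (ℕ → Bool) → Bool) (fun acc k => k acc)
    (fun c _ ih acc k => mN c.1 c.2 acc fun acc' => ih acc' k) L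

theorem mL_sound {c : ℝ} (hc0 : 0 ≤ c) (hc : ∀ b M, |F b M| ≤ c) {ct : CT} (L : List (ℕ × ℕ)) :
    ∀ (acc : ℕ) (k : ℕ → Bool), mL L acc k = true →
      ∃ m : ℕ, |evL F ct L| ≤ c * ((m : ℝ) - acc) ∧ k m = true := by
  induction L with
  | nil =>
    intro acc k hk
    exact ⟨acc, by simp [evL], hk⟩
  | cons a L ih =>
    intro acc k hk
    have hk' : (mN a.1 a.2 acc fun acc' => mL L acc' k) = true := hk
    obtain ⟨m, h1, h2, h3⟩ := mN_sound hc0 hc (ct := ct) a.1 a.2 acc _ hk'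
    obtain ⟨m', h4, h5⟩ := ih _ _ h3
    refine ⟨m', ?_, h5⟩
    have e : evL F ct (a :: L) = evN F ct a.1 a.2 + evL F ct L := by simp [evL]
    rw [e]
    refine (abs_add_le _ _).trans ?_
    linarith

/-- the difference of the lists `A` and `B` is small. -/
noncomputable def ckRes (ct : CT) (A B out : List (ℕ × ℕ)) (E : ℕ) : Bool :=
  cond (ckDiff ct A B out) (mL out 0 fun m => Nat.ble m E) false

theorem ckRes_sound {c : ℝ} (hc0 : 0 ≤ c) (hc : ∀ b M, |F b M| ≤ c) {ct : CT}
    {A B out : List (ℕ × ℕ)} {E : ℕ} (h : ckRes ct A B out E = true) :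
    |evL F ct A - evL F ct B| ≤ c * E := by
  unfold ckRes at h
  cases hd : ckDiff ct A B out with
  | false => rw [hd] at h; simp at h
  | true =>
    rw [hd] at h
    simp only [cond_true] at h
    obtain ⟨m, h1, h2⟩ := mL_sound hc0 hc (ct := ct) out 0 _ h
    rw [ckDiff_sound hd]
    have hm : m ≤ E := Nat.le_of_ble_eq_true h2
    have : (m : ℝ) ≤ E := by exact_mod_cast hm
    simp only [Nat.cast_zero, sub_zero] at h1
    exact h1.trans (mul_le_mul_of_nonneg_left this hc0)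

end Vale.Agent.P355.H129R
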